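import Crest.Agent.N067.A.Gib
import Crest.Agent.N067.A.HK
import Crest.Agent.N067.A.Ker6

/-!
# Row 67: the function `u_e = ψ (1 - ∂_e d)` (helper88)

`(2 - Δ) u_e = F_e = ψ² (3 |∇d - e|² + t) / 2 ∈ [ψ u_e, 3 ψ u_e]`.
-/

set_option autoImplicit false

open MeasureTheory Laplacian InnerProductSpace Topology Filter Set Metric
open scoped RealInnerProductSpace Gradient ContDiff

namespace Crest.Agent.N067

open Crest.Agent.R077 Ker

noncomputable section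

variable {n : ℕ} {v : EE n → ℝ} {e : EE n}

/-- `u_e = ψ (1 - ∂_e d)` -/
def ue (v : EE n → ℝ) (e x : EE n) : ℝ := psi v x * (1 - ⟪e, ∇ (dd v) x⟫)

/-- `F_e = ψ² (3 |∇d - e|² + t) / 2` -/
def Fe (v : EE n → ℝ) (e x : EE n) : ℝ :=
  psi v x ^ 2 * (3 * ‖∇ (dd v) x - e‖ ^ 2 + tt v x) / 2

theorem flat_eq (v : EE n → ℝ) (he : ‖e‖ = 1) (x : EE n) :
    ‖∇ (dd v) x - e‖ ^ 2 + tt v x = 2 * (1 - ⟪e, ∇ (dd v) x⟫) := by
  rw [norm_sub_sq_real, he, tt, real_inner_comm]; ring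

theorem two_ue (v : EE n → ℝ) (he : ‖e‖ = 1) (x : EE n) :
    2 * ue v e x = psi v x * (‖∇ (dd v) x - e‖ ^ 2 + tt v x) := by
  rw [flat_eq v he, ue]; ring

theorem Fe_eq (v : EE n → ℝ) (he : ‖e‖ = 1) (x : EE n) :
    Fe v e x = psi v x ^ 2 * (3 - tt v x - 3 * ⟪e, ∇ (dd v) x⟫) := by
  have := flat_eq v he x
  rw [Fe, show ‖∇ (dd v) x - e‖ ^ 2 = 2 * (1 - ⟪e, ∇ (dd v) x⟫) - tt v x by linarith]; ring

theorem ue_fun (v : EE n → ℝ) (e : EE n) :
    ue v e = fun x => psi v x - ∑ i, e i * (psi v x * pdv i (dd v) x) := by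
  funext x
  simp only [ue, inner_eq_sum, grad_apply, mul_sub, mul_one, Finset.mul_sum]
  congr 1
  exact Finset.sum_congr rfl fun i _ => by ring

namespace Sol

theorem abs_de_le (h : Sol v) (he : ‖e‖ = 1) (x : EE n) : |⟪e, ∇ (dd v) x⟫| ≤ 1 := by
  have h1 := abs_real_inner_le_norm e (∇ (dd v) x)
  rw [he, one_mul] at h1
  exact h1.trans (h.norm_grad_dd_le x)

theorem ue_nonneg (h : Sol v) (he : ‖e‖ = 1) (x : EE n) : 0 ≤ ue v e x :=
  mul_nonneg (h.psi_pos x).le (by linarith [(abs_le.1 (h.abs_de_le he x)).2])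

theorem ue_le_psi (h : Sol v) (he : ‖e‖ = 1) (x : EE n) : ue v e x ≤ 2 * psi v x := by
  have h1 := mul_le_mul_of_nonneg_left (abs_le.1 (h.abs_de_le he x)).1 (h.psi_pos x).le
  unfold ue
  linarith

theorem ue_le_two (h : Sol v) (he : ‖e‖ = 1) (x : EE n) : ue v e x ≤ 2 := by
  linarith [h.ue_le_psi he x, psi_le_one v x]

theorem ue_sm (h : Sol v) (e : EE n) : ContDiff ℝ ∞ (ue v e) := by
  rw [ue_fun]
  exact h.psi_sm.sub (ContDiff.sum fun i _ => contDiff_const.mul (h.psi_sm.mul (h.pdv_dd_sm i)))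

theorem Fe_ge (h : Sol v) (he : ‖e‖ = 1) (x : EE n) : psi v x * ue v e x ≤ Fe v e x := by
  have h1 := two_ue v he x
  have h2 : 0 ≤ psi v x ^ 2 * ‖∇ (dd v) x - e‖ ^ 2 := by positivity
  have h3 : psi v x * (2 * ue v e x) = psi v x ^ 2 * (‖∇ (dd v) x - e‖ ^ 2 + tt v x) := by
    rw [h1]; ring
  have _ := h.lt x
  unfold Fe
  linarith

theorem Fe_le (h : Sol v) (he : ‖e‖ = 1) (x : EE n) : Fe v e x ≤ 3 * psi v x * ue v e x := by
  have h1 := two_ue v he x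
  have h2 := mul_nonneg (sq_nonneg (psi v x)) (h.tt_nonneg x)
  have h3 : psi v x * (2 * ue v e x) = psi v x ^ 2 * (‖∇ (dd v) x - e‖ ^ 2 + tt v x) := by
    rw [h1]; ring
  unfold Fe
  linarith

theorem Fe_nonneg (h : Sol v) (e x : EE n) : 0 ≤ Fe v e x := by
  have := h.tt_nonneg x
  unfold Fe
  positivity

theorem Fe_le_sq (h : Sol v) (he : ‖e‖ = 1) (x : EE n) : Fe v e x ≤ 6 * psi v x ^ 2 := by
  have h1 := mul_le_mul_of_nonneg_left (h.ue_le_psi he x) (h.psi_pos x).le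
  linarith [h.Fe_le he x]

theorem Fe_le_six (h : Sol v) (he : ‖e‖ = 1) (x : EE n) : Fe v e x ≤ 6 := by
  have h1 := pow_le_one₀ (n := 2) (h.psi_pos x).le (psi_le_one v x)
  linarith [h.Fe_le_sq he x]

theorem lap_ue (h : Sol v) (he : ‖e‖ = 1) (x : EE n) :
    (Δ (ue v e)) x = 2 * ue v e x - Fe v e x := by
  have hp : ContDiffAt ℝ 2 (psi v) x := (contDiff_infty.1 h.psi_sm 2).contDiffAt
  have hd : ∀ i, ContDiffAt ℝ 2 (pdv i (dd v)) x := fun i =>
    (contDiff_infty.1 (h.pdv_dd_sm i) 2).contDiffAt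
  have h1 : ∀ i, (Δ fun y => e i * (psi v y * pdv i (dd v) y)) x =
      e i * pdv i (dd v) x * (2 * psi v x - 3 * psi v x ^ 2) := fun i => by
    rw [lap_const_mul (hp.mul (hd i)), h.lap_psi_mul (hd i), h.Lm_pdv, h.lap_psi2, qq]; ring
  rw [Fe_eq v he, ue, ue_fun, lap_sub' hp (ContDiffAt.sum fun i _ =>
    contDiffAt_const.mul (hp.mul (hd i))), lap_sum _ fun i _ => contDiffAt_const.mul (hp.mul (hd i)),
    h.lap_psi2]
  simp only [h1, ← Finset.sum_mul, inner_eq_sum, grad_apply]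
  ring

theorem continuous_Fe (h : Sol v) (he : ‖e‖ = 1) : Continuous (Fe v e) := by
  have : Fe v e = fun x => 2 * ue v e x - (Δ (ue v e)) x := funext fun x => by
    rw [h.lap_ue he]; ring
  rw [this]
  exact (continuous_const.mul (h.ue_sm e).continuous).sub
    (continuous_lap (contDiff_infty.1 (h.ue_sm e) 2))

theorem abs_lap_ue_le (h : Sol v) (he : ‖e‖ = 1) (x : EE n) :
    |(Δ (ue v e)) x| ≤ 2 * ue v e x := by
  have h1 := h.Fe_le he x
  have h2 := h.Fe_nonneg e x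
  have h3 := h.ue_nonneg he x
  have h4 := mul_le_of_le_one_left h3 (psi_le_one v x)
  rw [h.lap_ue he, abs_le]
  constructor <;> linarith

/-- `u_e = G * F_e` -/
theorem ue_eq_int (h : Sol v) (he : ‖e‖ = 1) (x : EE n) :
    ue v e x = ∫ y, Gk 2 (x - y) * Fe v e y := by
  rw [rep' (μ := 2) (a := 0) (M := 4) two_pos le_rfl (by norm_num)
    (contDiff_infty.1 (h.ue_sm e) 2) (gr_of_bdd fun y => by
      rw [abs_of_nonneg (h.ue_nonneg he y)]; linarith [h.ue_le_two he y])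
    (gr_of_bdd fun y => by linarith [h.abs_lap_ue_le he y, h.ue_le_two he y]) x]
  simp only [h.lap_ue he, sub_sub_cancel]

/-- `P ≤ ψ u_e / 2` -/
theorem P_le_ue (h : Sol v) (he : ‖e‖ = 1) (x : EE n) :
    psi v x ^ 2 * tt v x / 4 ≤ psi v x * ue v e x / 2 := by
  have h1 := two_ue v he x
  have h2 : 0 ≤ psi v x ^ 2 * ‖∇ (dd v) x - e‖ ^ 2 := by positivity
  have h3 : psi v x * (2 * ue v e x) = psi v x ^ 2 * (‖∇ (dd v) x - e‖ ^ 2 + tt v x) := by
    rw [h1]; ring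
  have _ := h.lt x
  linarith

/-- in the direction of the gradient `u_e ≤ q` -/
theorem ue_le_qq (h : Sol v) {x : EE n} (hx : ⟪e, ∇ (dd v) x⟫ = ‖∇ (dd v) x‖) :
    ue v e x ≤ qq v x := by
  rw [ue, qq, hx, tt]
  refine mul_le_mul_of_nonneg_left ?_ (h.psi_pos x).le
  have h1 := mul_le_of_le_one_left (norm_nonneg (∇ (dd v) x)) (h.norm_grad_dd_le x)
  linarith

theorem ue_le_tt (h : Sol v) {x : EE n} (hx : ⟪e, ∇ (dd v) x⟫ = ‖∇ (dd v) x‖) :
    ue v e x ≤ tt v x :=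
  (h.ue_le_qq hx).trans (mul_le_of_le_one_left (h.tt_nonneg x) (psi_le_one v x))

theorem psi_le_exp (h : Sol v) (x : EE n) :
    psi v x ≤ 4 * Real.exp (-(Real.sqrt 2 * |dd v x|)) := by
  have h2 := sqrt2_pos
  have h1 : Real.exp |dd v x / Real.sqrt 2| ≤ 2 * Real.cosh (dd v x / Real.sqrt 2) := by
    rw [← Real.cosh_abs, Real.cosh_eq]
    linarith [Real.exp_pos (-|dd v x / Real.sqrt 2|)]
  have h3 : Real.exp (Real.sqrt 2 * |dd v x|) = Real.exp |dd v x / Real.sqrt 2| ^ 2 := by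
    rw [← Real.exp_nat_mul, abs_div, abs_of_pos h2]
    congr 1
    field_simp
    rw [sqrt2_sq]; push_cast; ring
  have hc := Real.cosh_pos (dd v x / Real.sqrt 2)
  rw [h.psi_eq_cosh, Real.exp_neg, h3, ← div_eq_mul_inv, div_le_div_iff₀ (by positivity)
    (by positivity)]
  have := pow_le_pow_left₀ (Real.exp_pos _).le h1 2
  linarith

theorem exp_le_psi (h : Sol v) (x : EE n) : Real.exp (-(Real.sqrt 2 * |dd v x|)) ≤ psi v x := by
  have h2 := sqrt2_pos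
  have h1 : Real.cosh (dd v x / Real.sqrt 2) ≤ Real.exp |dd v x / Real.sqrt 2| := by
    rw [← Real.cosh_abs, Real.cosh_eq]
    have : Real.exp (-|dd v x / Real.sqrt 2|) ≤ Real.exp |dd v x / Real.sqrt 2| :=
      Real.exp_le_exp.2 (neg_le_self (abs_nonneg _))
    linarith
  have h3 : Real.exp (Real.sqrt 2 * |dd v x|) = Real.exp |dd v x / Real.sqrt 2| ^ 2 := by
    rw [← Real.exp_nat_mul, abs_div, abs_of_pos h2]
    congr 1
    field_simp
    rw [sqrt2_sq]; push_cast; ring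
  have hc := Real.cosh_pos (dd v x / Real.sqrt 2)
  rw [h.psi_eq_cosh, Real.exp_neg, h3, ← one_div]
  exact one_div_le_one_div_of_le (by positivity) (pow_le_pow_left₀ hc.le h1 2)

end Sol

/-- `u_e` is log-Lipschitz -/
theorem ue_grad (n : ℕ) : ∃ C : ℝ, 1 ≤ C ∧ ∀ (v : EE n → ℝ) (e : EE n), Sol v → ‖e‖ = 1 →
    (∀ x, ‖fderiv ℝ (ue v e) x‖ ≤ C * ue v e x) ∧
      ∀ x y, ue v e y ≤ Real.exp (C * ‖y - x‖) * ue v e x := by
  obtain ⟨C, hC1, hC⟩ := harnack_glob n (B := 2) two_pos.le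
  refine ⟨C, hC1, fun v e h he => hC _ (contDiff_infty.1 (h.ue_sm e) 2) (h.ue_nonneg he)
    fun z => ?_⟩
  linarith [h.abs_lap_ue_le he z, norm_nonneg (fderiv ℝ (ue v e) z)]

/-- sharp growth of `u_e` -/
theorem ue_far (n : ℕ) : ∃ K : ℝ, 0 ≤ K ∧ ∀ (v : EE n → ℝ) (e : EE n), Sol v → ‖e‖ = 1 → ∀ x y,
    ue v e x ≤ K * (1 + dist x y) ^ (n / 2 : ℝ) * Real.exp (Real.sqrt 2 * dist x y) * ue v e y := by
  obtain ⟨C, hC1, hC⟩ := ue_grad n
  obtain ⟨K, hK, h2⟩ := harnack_far n (μ := 2) two_pos (Real.exp_pos C).le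
  refine ⟨K, hK, fun v e h he => h2 _ 4 (contDiff_infty.1 (h.ue_sm e) 2)
    (fun z => by rw [abs_of_nonneg (h.ue_nonneg he z)]; linarith [h.ue_le_two he z])
    (fun z => by linarith [h.abs_lap_ue_le he z, h.ue_le_two he z]) (h.ue_nonneg he)
    (fun z => (le_abs_self _).trans (h.abs_lap_ue_le he z)) fun x y hy =>
      ((hC v e h he).2 x y).trans (mul_le_mul_of_nonneg_right (Real.exp_le_exp.2 ?_)
        (h.ue_nonneg he x))⟩
  rw [← dist_eq_norm]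
  exact mul_le_of_le_one_right (by linarith) hy

/-- growth of `u_e` at any rate above `√2` -/
theorem ue_rate (n : ℕ) {a : ℝ} (ha : Real.sqrt 2 < a) : ∃ K : ℝ, 0 ≤ K ∧
    ∀ (v : EE n → ℝ) (e : EE n), Sol v → ‖e‖ = 1 → ∀ x y,
      ue v e x ≤ K * Real.exp (a * dist x y) * ue v e y := by
  obtain ⟨K, hK, h1⟩ := ue_far n
  obtain ⟨L, hL, h2⟩ := poly_le_exp (n / 2 : ℝ) (by positivity) (sub_pos.2 ha)
  refine ⟨K * L, mul_nonneg hK hL, fun v e h he x y => (h1 v e h he x y).trans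
    (mul_le_mul_of_nonneg_right ?_ (h.ue_nonneg he y))⟩
  rw [show a * dist x y = (a - Real.sqrt 2) * dist x y + Real.sqrt 2 * dist x y by ring,
    Real.exp_add, ← mul_assoc, mul_assoc K L]
  have := h2 _ (dist_nonneg (x := x) (y := y))
  gcongr

/-- FLATNESS for free: `|∇d(y) - e|² + t(y) ≤ K e^{a D + √2 |d y|} u_e(x)` -/
theorem ue_flat (n : ℕ) {a : ℝ} (ha : Real.sqrt 2 < a) : ∃ K : ℝ, 0 ≤ K ∧
    ∀ (v : EE n → ℝ) (e : EE n), Sol v → ‖e‖ = 1 → ∀ x y, ‖∇ (dd v) y - e‖ ^ 2 + tt v y ≤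
      K * Real.exp (a * dist y x + Real.sqrt 2 * |dd v y|) * ue v e x := by
  obtain ⟨K, hK, h1⟩ := ue_rate n ha
  refine ⟨2 * K, by positivity, fun v e h he x y => ?_⟩
  have h2 := h1 v e h he y x
  have h3 := two_ue v he y
  have h4 := mul_le_mul_of_nonneg_right (h.exp_le_psi y)
    (add_nonneg (sq_nonneg ‖∇ (dd v) y - e‖) (h.tt_nonneg y))
  have h5 : Real.exp (-(Real.sqrt 2 * |dd v y|)) * (‖∇ (dd v) y - e‖ ^ 2 + tt v y) ≤
      2 * K * Real.exp (a * dist y x) * ue v e x := by linarith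
  have h6 := mul_le_mul_of_nonneg_left h5 (Real.exp_pos (Real.sqrt 2 * |dd v y|)).le
  rw [← mul_assoc, ← Real.exp_add, add_neg_cancel, Real.exp_zero, one_mul] at h6
  rw [Real.exp_add]
  linarith

end

end Crest.Agent.N067
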