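import Crest.Agent.N067.U.Prof
import Crest.Agent.N067.U.Pup

/-!
# Row 67: VT integrals (helper43)

Sharp upper and lower bounds of `∫ G (q - y) ψ(y)²` over a sheet at height `h` above `q`
(`4/3 e^{-√2 h}`), of `P` (`16 e^{-√2 f}`) and of the pair integral column × patch (`32 √2 e^{-√2 f}`).
-/

set_option autoImplicit false

open MeasureTheory Laplacian InnerProductSpace Topology Filter Set Metric
open scoped RealInnerProductSpace ContDiff Gradient ENNReal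

namespace Crest.Agent.N067

open Crest.Agent.R077 Ker

noncomputable section

variable {n : ℕ}

theorem exists_exp_le {a ε : ℝ} (ha : 0 < a) (hε : 0 < ε) (K : ℝ) :
    ∃ L : ℝ, 0 ≤ L ∧ ∀ s, L ≤ s → K * Real.exp (-a * s) ≤ ε := by
  have lim : Tendsto (fun s => K * Real.exp (-a * s)) atTop (𝓝 (K * 0)) :=
    (Real.tendsto_exp_atBot.comp (tendsto_id.const_mul_atTop_of_neg (neg_lt_zero.2 ha))).const_mul K
  rw [mul_zero] at lim
  obtain ⟨L, hL⟩ := eventually_atTop.1 (lim.eventually_le_const hε)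
  exact ⟨max L 0, le_max_right _ _, fun s hs => hL s ((le_max_left _ _).trans hs)⟩

theorem exists_exp_le_one_add {a ε : ℝ} (ha : 0 < a) (hε : 0 < ε) :
    ∃ δ : ℝ, 0 < δ ∧ Real.exp (a * δ) ≤ 1 + ε :=
  ⟨Real.log (1 + ε) / a, div_pos (Real.log_pos (by linarith)) ha, by
    rw [mul_div_cancel₀ _ ha.ne', Real.exp_log (by linarith)]⟩

theorem setIntegral_Gk_shift (μ : ℝ) (q : EE n) {S : Set (EE n)} (hS : MeasurableSet S)
    (f : EE n → ℝ) :
    ∫ y in S, Gk μ (q - y) * f y = ∫ z, Gk μ z * S.indicator f (q + z) := by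
  rw [integral_shift (Gk μ) (S.indicator f) q, ← integral_indicator hS]
  refine integral_congr_ae (Eventually.of_forall fun y => ?_)
  simp only [indicator, mul_ite, mul_zero, Gk_sub_comm μ q y]

theorem meas_ridge (e : EE n) : Measurable fun z : EE n => ⟪e, z⟫ :=
  (contDiff_ridge e (k := 0)).continuous.measurable

/-- upper bound, centred form -/
theorem vtu0 (n : ℕ) {ε C0 lam : ℝ} (hε : 0 < ε) (hC : 0 ≤ C0) (hl : 1 < lam) :
    ∃ L δ h0 : ℝ, 0 ≤ L ∧ 0 < δ ∧ ∀ (e : EE n) (h : ℝ) (F : EE n → ℝ), ‖e‖ = 1 → h0 ≤ h →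
      AEStronglyMeasurable F volume → (∀ z, 0 ≤ F z ∧ F z ≤ 1) →
      (∀ z, ‖z‖ < lam * h → ⟪e, z⟫ ≤ h - L → F z ≤ C0 * p0 (⟪e, z⟫ - h) ^ 2) →
      (∀ z, ‖z‖ < lam * h → |⟪e, z⟫ - h| ≤ L →
        F z ≤ Real.exp (2 * √2 * δ) * p0 (⟪e, z⟫ - h) ^ 2) →
      ∫ z, Gk 2 z * F z ≤ (1 + ε) * (4 / 3 * Real.exp (-√2 * h)) := by
  obtain ⟨L, hL0, hL⟩ := exists_exp_le sqrt2_pos (show 0 < ε / 3 by positivity) (4 * C0 + 1 / 4)
  obtain ⟨δ, hδ, hd⟩ := exists_exp_le_one_add (a := 2 * √2) (by positivity)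
    (show 0 < ε / 2 by positivity)
  obtain ⟨h0, hh⟩ := Gk_far n (μ := 2) two_pos hl (show 0 < ε / 3 by positivity)
  refine ⟨L, δ, h0, hL0, hδ, fun e h F he h1 mF bF H1 H2 => ?_⟩
  set A : Set (EE n) := {z | ⟪e, z⟫ ≤ h - L} with hA
  set B : Set (EE n) := {z | h + L < ⟪e, z⟫} with hB
  set D : Set (EE n) := {z | lam * h ≤ ‖z‖} with hD
  have mA : MeasurableSet A := measurableSet_le (meas_ridge e) measurable_const
  have mB : MeasurableSet B := measurableSet_lt measurable_const (meas_ridge e)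
  have mD : MeasurableSet D := measurableSet_le measurable_const measurable_norm
  have i0 := integrable_Gk_p0 e h
  have iG := integrable_Gk (n := n) (μ := 2) two_pos
  have i1 := i0.const_mul (Real.exp (2 * √2 * δ))
  have i2 := (i0.indicator mA).const_mul C0
  have i3 := iG.indicator mB
  have i4 := iG.indicator mD
  have key : ∫ z, Gk 2 z * F z ≤ ∫ z, (Real.exp (2 * √2 * δ) * (Gk 2 z * p0 (⟪e, z⟫ - h) ^ 2)
      + C0 * A.indicator (fun z => Gk 2 z * p0 (⟪e, z⟫ - h) ^ 2) z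
      + B.indicator (Gk 2) z + D.indicator (Gk 2) z) := by
    refine integral_mono (integrable_Gk_bdd (M := 1) two_pos mF fun z => by
      rw [abs_of_nonneg (bF z).1]; exact (bF z).2) (((i1.add i2).add i3).add i4) fun z => ?_
    have g0 := Gk_nonneg 2 z
    have n0 : 0 ≤ Gk 2 z * p0 (⟪e, z⟫ - h) ^ 2 := mul_nonneg g0 (sq_nonneg _)
    have n1 := mul_nonneg (Real.exp_pos (2 * √2 * δ)).le n0
    have n2 : 0 ≤ C0 * A.indicator (fun z => Gk 2 z * p0 (⟪e, z⟫ - h) ^ 2) z :=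
      mul_nonneg hC (indicator_nonneg (fun z _ => mul_nonneg (Gk_nonneg 2 z) (sq_nonneg _)) z)
    have n3 : 0 ≤ B.indicator (Gk 2) z := indicator_nonneg (fun z _ => Gk_nonneg 2 z) z
    have n4 : 0 ≤ D.indicator (Gk 2) z := indicator_nonneg (fun z _ => Gk_nonneg 2 z) z
    have n5 : Gk 2 z * F z ≤ Gk 2 z := mul_le_of_le_one_right g0 (bF z).2
    simp only
    by_cases zD : z ∈ D
    · rw [indicator_of_mem zD]; linarith
    by_cases zB : z ∈ B
    · rw [indicator_of_mem zB]; linarith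
    have z1 : ‖z‖ < lam * h := not_le.1 zD
    by_cases zA : z ∈ A
    · rw [indicator_of_mem zA]
      nlinarith [mul_le_mul_of_nonneg_left (H1 z z1 zA) g0]
    · have zA' : h - L < ⟪e, z⟫ := not_le.1 zA
      have zB' : ⟪e, z⟫ ≤ h + L := not_lt.1 zB
      have := H2 z z1 (abs_le.2 ⟨by linarith, by linarith⟩)
      nlinarith [mul_le_mul_of_nonneg_left this g0]
  have i12 : Integrable fun z => Real.exp (2 * √2 * δ) * (Gk 2 z * p0 (⟪e, z⟫ - h) ^ 2)
      + C0 * A.indicator (fun z => Gk 2 z * p0 (⟪e, z⟫ - h) ^ 2) z := i1.add i2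
  have i123 : Integrable fun z => Real.exp (2 * √2 * δ) * (Gk 2 z * p0 (⟪e, z⟫ - h) ^ 2)
      + C0 * A.indicator (fun z => Gk 2 z * p0 (⟪e, z⟫ - h) ^ 2) z + B.indicator (Gk 2) z :=
    i12.add i3
  rw [integral_add i123 i4, integral_add i12 i3, integral_add i1 i2,
    integral_const_mul, integral_const_mul, integral_indicator mA, integral_indicator mB,
    integral_indicator mD] at key
  have a1 := mul_le_mul hd (integral_Gk_p0_le he h)
    (integral_nonneg fun z => mul_nonneg (Gk_nonneg 2 z) (sq_nonneg _)) (by positivity)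
  have a2 := mul_le_mul_of_nonneg_left (Gk_p0_below he h L) hC
  have a3 := Gk_half two_pos he (h + L)
  rw [show -√2 * (h + L) = -√2 * L + -√2 * h by ring, Real.exp_add] at a3
  have a4 := hh h h1
  have a5 := mul_le_mul_of_nonneg_right (hL L le_rfl) (Real.exp_pos (-√2 * h)).le
  nlinarith

/-- **VT, upper bound** in the form of `pupP` -/
theorem vtu (n : ℕ) {ε C0 lam : ℝ} (hε : 0 < ε) (hC : 0 ≤ C0) (hl : 1 < lam) :
    ∃ L δ h0 : ℝ, 0 ≤ L ∧ 0 < δ ∧ ∀ (v : EE n → ℝ) (e q : EE n) (h : ℝ) (TOP : Set (EE n)),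
      Sol v → ‖e‖ = 1 → h0 ≤ h → MeasurableSet TOP →
      (∀ y ∈ TOP, ‖y - q‖ < lam * h → ⟪e, y - q⟫ ≤ h - L → h - ⟪e, y - q⟫ - C0 ≤ |dd v y|) →
      (∀ y ∈ TOP, ‖y - q‖ < lam * h → |⟪e, y - q⟫ - h| ≤ L → |⟪e, y - q⟫ - h| - δ ≤ |dd v y|) →
      ∫ y in TOP, Gk 2 (q - y) * psi v y ^ 2 ≤ (1 + ε) * (4 / 3 * Real.exp (-√2 * h)) := by
  obtain ⟨L, δ, h0, hL, hδ, H⟩ := vtu0 n hε (Real.exp_pos (2 * √2 * C0)).le hl
  refine ⟨L, δ, h0, hL, hδ, fun v e q h TOP hv he h1 mT H1 H2 => ?_⟩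
  have key : ∀ {d s c : ℝ}, 0 ≤ c → |s| - c ≤ |d| → p0 d ^ 2 ≤ Real.exp (2 * √2 * c) * p0 s ^ 2 := by
    intro d s c hc h2
    refine (pow_le_pow_left₀ (p0_pos d).le (p0_le_of_abs hc h2) 2).trans_eq ?_
    rw [mul_pow, ← Real.exp_nat_mul]
    congr 2; push_cast; ring
  rw [setIntegral_Gk_shift 2 q mT]
  refine H e h _ he h1 ((((hv.psi_sm.continuous.pow 2).measurable.indicator mT).comp
    (measurable_const_add q)).aestronglyMeasurable) (fun z => ?_) (fun z z1 z2 => ?_)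
    fun z z1 z2 => ?_
  · exact ⟨indicator_nonneg (fun _ _ => sq_nonneg _) _, indicator_apply_le' (fun _ =>
      pow_le_one₀ (hv.psi_pos _).le (psi_le_one _ _)) fun _ => zero_le_one⟩
  · refine indicator_apply_le' (fun hz => ?_) fun _ => by positivity
    have := H1 _ hz (by simpa using z1) (by simpa using z2)
    rw [add_sub_cancel_left] at this
    rw [hv.psi_eq_p0]
    exact key hC (by rw [abs_of_nonpos (by linarith)]; linarith)
  · refine indicator_apply_le' (fun hz => ?_) fun _ => by positivity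
    have := H2 _ hz (by simpa using z1) (by simpa using z2)
    rw [add_sub_cancel_left] at this
    rw [hv.psi_eq_p0]
    exact key hδ.le this

/-- **VT, `P ≤ 16 e^{-√2 f}`**: `q` at depth `T`, the sheet at height `h` above `q`, `f = T + h` -/
theorem vtP (n : ℕ) {ε C0 lam : ℝ} (hε : 0 < ε) (hC : 0 ≤ C0) (hl : 1 < lam) :
    ∃ L δ h0 : ℝ, 0 ≤ L ∧ 0 < δ ∧ ∀ (v : EE n → ℝ) (e q : EE n) (T h : ℝ) (TOP : Set (EE n)),
      Sol v → ‖e‖ = 1 → h0 ≤ h → MeasurableSet TOP → T - δ ≤ |dd v q| →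
      (∀ y ∈ TOP, ‖y - q‖ < lam * h → ⟪e, y - q⟫ ≤ h - L → h - ⟪e, y - q⟫ - C0 ≤ |dd v y|) →
      (∀ y ∈ TOP, ‖y - q‖ < lam * h → |⟪e, y - q⟫ - h| ≤ L → |⟪e, y - q⟫ - h| - δ ≤ |dd v y|) →
      3 * psi v q * ∫ y in TOP, Gk 2 (q - y) * psi v y ^ 2
        ≤ (1 + ε) * (16 * Real.exp (-√2 * (T + h))) := by
  set η := min 1 (ε / 3) with hη
  have η0 : 0 < η := lt_min one_pos (by positivity)
  have η1 : (1 + η) * (1 + η) ≤ 1 + ε := by
    have h1 : η ≤ 1 := min_le_left _ _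
    have h2 : η ≤ ε / 3 := min_le_right _ _
    nlinarith
  obtain ⟨L, δ, h0, hL, hδ, H⟩ := vtu n η0 hC hl
  obtain ⟨δ', hδ', hd⟩ := exists_exp_le_one_add sqrt2_pos η0
  refine ⟨L, min δ δ', h0, hL, lt_min hδ hδ', fun v e q T h TOP hv he h1 mT hq H1 H2 => ?_⟩
  have a1 := H v e q h TOP hv he h1 mT H1 fun y hy y1 y2 =>
    le_trans (by linarith [min_le_left δ δ']) (H2 y hy y1 y2)
  have a2 : psi v q ≤ (1 + η) * (4 * Real.exp (-√2 * T)) := by
    rw [hv.psi_eq_p0]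
    refine (p0_le_abs _).trans ?_
    have b1 : Real.exp (-√2 * |dd v q|) ≤ Real.exp (√2 * δ') * Real.exp (-√2 * T) := by
      rw [← Real.exp_add]
      exact Real.exp_le_exp.2 (by nlinarith [min_le_right δ δ', sqrt2_pos])
    nlinarith [mul_le_mul_of_nonneg_right hd (Real.exp_pos (-√2 * T)).le]
  have a3 := mul_le_mul a2 a1 (setIntegral_nonneg mT fun y _ =>
    mul_nonneg (Gk_nonneg 2 _) (sq_nonneg _)) (by positivity)
  rw [show -√2 * (T + h) = -√2 * T + -√2 * h by ring, Real.exp_add]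
  nlinarith [mul_le_mul_of_nonneg_right η1
    (mul_pos (Real.exp_pos (-√2 * T)) (Real.exp_pos (-√2 * h))).le]

/-- the patch round the point at height `h` -/
def Patch (e q : EE n) (h T c : ℝ) : Set (EE n) :=
  {y | |⟪e, y - q⟫ - h| ≤ T ∧ ‖y - (q + h • e)‖ ≤ c}

theorem measurableSet_patch (e q : EE n) (h T c : ℝ) : MeasurableSet (Patch e q h T c) :=
  ((isClosed_le (f := fun y : EE n => |⟪e, y - q⟫ - h|) (by fun_prop) continuous_const).inter
    (isClosed_le (f := fun y : EE n => ‖y - (q + h • e)‖) (by fun_prop)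
      continuous_const)).measurableSet

/-- the patch carries almost everything -/
theorem Gk_p0_patch (n : ℕ) {ε c : ℝ} (hε : 0 < ε) (hc : 0 < c) : ∃ T0 : ℝ, 0 ≤ T0 ∧ ∀ T, T0 ≤ T →
    ∃ h0 : ℝ, 0 ≤ h0 ∧ ∀ (e : EE n) (h : ℝ), ‖e‖ = 1 → h0 ≤ h →
      (1 - ε) * (4 / 3 * Real.exp (-√2 * h))
        ≤ ∫ z in Patch e 0 h T (c * h), Gk 2 z * p0 (⟪e, z⟫ - h) ^ 2 := by
  obtain ⟨T0, hT0, hT⟩ := exists_exp_le sqrt2_pos (show 0 < ε / 2 by positivity) 4
  have hl : 1 < √(1 + c ^ 2 / 2) := Real.lt_sqrt_of_sq_lt (by nlinarith [sq_pos_of_pos hc])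
  obtain ⟨h1, hh⟩ := Gk_far n (μ := 2) two_pos hl (show 0 < 2 / 3 * ε by positivity)
  refine ⟨T0, hT0, fun T hTT => ⟨max (max h1 T) (4 * T / c ^ 2), ?_, fun e h he h2 => ?_⟩⟩
  · exact le_max_of_le_left (le_max_of_le_right (hT0.trans hTT))
  have T1 : 0 ≤ T := hT0.trans hTT
  have b1 : h1 ≤ h := (le_max_left _ _).trans ((le_max_left _ _).trans h2)
  have b2 : T ≤ h := (le_max_right _ _).trans ((le_max_left _ _).trans h2)
  have b3 : 4 * T ≤ h * c ^ 2 := (div_le_iff₀ (by positivity)).1 ((le_max_right _ _).trans h2)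
  have b4 : 0 ≤ h := T1.trans b2
  set A : Set (EE n) := {z | |⟪e, z⟫ - h| ≤ T} with hA
  set D : Set (EE n) := {z | √(1 + c ^ 2 / 2) * h ≤ ‖z‖} with hD
  have mA : MeasurableSet A := (isClosed_le (by fun_prop) continuous_const).measurableSet
  have mD : MeasurableSet D := measurableSet_le measurable_const measurable_norm
  have mP := measurableSet_patch e 0 h T (c * h)
  have i0 := integrable_Gk_p0 e h
  have iG := integrable_Gk (n := n) (μ := 2) two_pos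
  have key : ∫ z, A.indicator (fun z => Gk 2 z * p0 (⟪e, z⟫ - h) ^ 2) z
      ≤ ∫ z, ((Patch e 0 h T (c * h)).indicator (fun z => Gk 2 z * p0 (⟪e, z⟫ - h) ^ 2) z
        + D.indicator (Gk 2) z) := by
    refine integral_mono (i0.indicator mA) ((i0.indicator mP).add (iG.indicator mD)) fun z => ?_
    have n2 : 0 ≤ (Patch e 0 h T (c * h)).indicator (fun z => Gk 2 z * p0 (⟪e, z⟫ - h) ^ 2) z :=
      indicator_nonneg (fun z _ => mul_nonneg (Gk_nonneg 2 z) (sq_nonneg _)) z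
    have n4 : 0 ≤ D.indicator (Gk 2) z := indicator_nonneg (fun z _ => Gk_nonneg 2 z) z
    refine indicator_apply_le' (fun zA' => ?_) fun _ => add_nonneg n2 n4
    have zA : |⟪e, z⟫ - h| ≤ T := zA'
    by_cases zP : z ∈ Patch e 0 h T (c * h)
    · simp only [indicator_of_mem zP]; linarith
    · have z1 : c * h < ‖z - h • e‖ := by
        by_contra z1
        exact zP ⟨by simpa using zA, by simpa using not_lt.1 z1⟩
      have z2 : (c * h) ^ 2 ≤ ‖z - h • e‖ ^ 2 := pow_le_pow_left₀ (by positivity) z1.le 2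
      rw [norm_sub_sq_real, norm_smul, he, inner_smul_right, real_inner_comm, mul_one,
        Real.norm_eq_abs, sq_abs] at z2
      have z3 : h - T ≤ ⟪e, z⟫ := by linarith [(abs_le.1 zA).1]
      have zD : z ∈ D := by
        refine abs_le_of_sq_le_sq' ?_ (norm_nonneg z) |>.2
        rw [mul_pow, Real.sq_sqrt (by positivity)]
        nlinarith [mul_le_mul_of_nonneg_left z3 b4, mul_le_mul_of_nonneg_left b3 b4]
      simp only [indicator_of_mem zD]
      linarith [mul_le_of_le_one_right (Gk_nonneg 2 z) ((le_abs_self _).trans (abs_p0_sq_le (⟪e, z⟫ - h)))]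
  rw [integral_add (i0.indicator mP) (iG.indicator mD), integral_indicator mA,
    integral_indicator mP, integral_indicator mD] at key
  have a1 := Gk_p0_slab he T1 b2
  have a2 := hh h b1
  have a3 := mul_le_mul_of_nonneg_right (hT T hTT) (Real.exp_pos (-√2 * h)).le
  nlinarith

/-- **VT, lower bound** -/
theorem vtl (n : ℕ) {ε c : ℝ} (hε : 0 < ε) (hc : 0 < c) : ∃ T0 δ : ℝ, 0 ≤ T0 ∧ 0 < δ ∧ ∀ T, T0 ≤ T →
    ∃ h0 : ℝ, 0 ≤ h0 ∧ ∀ (v : EE n → ℝ) (e q : EE n) (h : ℝ) (S : Set (EE n)), Sol v → ‖e‖ = 1 →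
      h0 ≤ h → MeasurableSet S →
      (∀ y ∈ Patch e q h T (c * h), y ∈ S ∧ |dd v y| ≤ |⟪e, y - q⟫ - h| + δ) →
      (1 - ε) * (4 / 3 * Real.exp (-√2 * h)) ≤ ∫ y in S, Gk 2 (q - y) * psi v y ^ 2 := by
  obtain ⟨T0, hT0, H⟩ := Gk_p0_patch n (half_pos hε) hc
  obtain ⟨δ, hδ, hd⟩ := exists_exp_le_one_add (a := 2 * √2) (by positivity) (half_pos hε)
  refine ⟨T0, δ, hT0, hδ, fun T hT => ?_⟩
  obtain ⟨h0, hh0, H2⟩ := H T hT
  refine ⟨h0, hh0, fun v e q h S hv he h1 mS hS => ?_⟩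
  have mP := measurableSet_patch e 0 h T (c * h)
  have I0 : 0 ≤ ∫ y in S, Gk 2 (q - y) * psi v y ^ 2 :=
    setIntegral_nonneg mS fun y _ => mul_nonneg (Gk_nonneg 2 _) (sq_nonneg _)
  have key : ∫ z in Patch e 0 h T (c * h), Gk 2 z * p0 (⟪e, z⟫ - h) ^ 2
      ≤ (1 + ε / 2) * ∫ y in S, Gk 2 (q - y) * psi v y ^ 2 := by
    rw [setIntegral_Gk_shift 2 q mS, ← integral_indicator mP, ← integral_const_mul]
    have nn : ∀ z, 0 ≤ S.indicator (fun y => psi v y ^ 2) (q + z) := fun z =>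
      indicator_nonneg (fun _ _ => sq_nonneg _) _
    refine integral_mono ((integrable_Gk_p0 e h).indicator mP) (Integrable.const_mul
      (integrable_Gk_bdd (M := 1) two_pos ((((hv.psi_sm.continuous.pow 2).measurable.indicator
        mS).comp (measurable_const_add q)).aestronglyMeasurable) fun z => ?_) _) fun z => ?_
    · refine (abs_of_nonneg (nn z)).trans_le ?_
      exact indicator_apply_le' (fun _ => pow_le_one₀ (hv.psi_pos _).le (psi_le_one _ _))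
        fun _ => zero_le_one
    · refine indicator_apply_le' (fun zP => ?_) fun _ =>
        mul_nonneg (by positivity) (mul_nonneg (Gk_nonneg 2 z) (nn z))
      obtain ⟨y1, y2⟩ := hS (q + z) ⟨by simpa using zP.1, by simpa using zP.2⟩
      rw [add_sub_cancel_left] at y2
      simp only [indicator_of_mem y1]
      have a1 := pow_le_pow_left₀ (p0_pos _).le
        (p0_le_of_abs (d := ⟪e, z⟫ - h) (s := dd v (q + z)) hδ.le (by linarith)) 2
      rw [mul_pow, ← Real.exp_nat_mul, ← hv.psi_eq_p0,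
        show ((2 : ℕ) : ℝ) * (√2 * δ) = 2 * √2 * δ by push_cast; ring] at a1
      nlinarith [mul_le_mul_of_nonneg_left (a1.trans
        (mul_le_mul_of_nonneg_right hd (sq_nonneg _))) (Gk_nonneg 2 z)]
  have a1 := (H2 e h he h1).trans key
  have a2 : 0 < 4 / 3 * Real.exp (-√2 * h) := by positivity
  by_contra a3
  push Not at a3
  nlinarith [mul_pos (mul_pos hε hε) a2]

/-- **VT, pairs, pointwise**: `x` is within `δ` of the point at height `a` of the column of `x0`,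
the other sheet is at height `f` -/
theorem vt_pair_pt (n : ℕ) {ε c : ℝ} (hε : 0 < ε) (hc : 0 < c) : ∃ T0 δ : ℝ, 0 ≤ T0 ∧ 0 < δ ∧
    ∀ T, T0 ≤ T → ∃ f0 : ℝ, 0 ≤ f0 ∧ ∀ (v : EE n → ℝ) (e x0 x : EE n) (f a : ℝ) (S : Set (EE n)),
      Sol v → ‖e‖ = 1 → f0 ≤ f → MeasurableSet S →
      (∀ y ∈ Patch e x0 f T (c * f), y ∈ S ∧ |dd v y| ≤ |⟪e, y - x0⟫ - f| + δ) →
      |a| ≤ T → ‖x - (x0 + a • e)‖ ≤ δ → |dd v x| ≤ |a| + δ →
      (1 - ε) * (12 * Real.exp (-√2 * f)) * (Real.exp (√2 * a) * p0 a ^ 2)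
        ≤ 9 * psi v x ^ 2 * ∫ y in S, Gk 2 (x - y) * psi v y ^ 2 := by
  obtain ⟨T0, δ, hT0, hδ, H⟩ := vtl n (half_pos hε) (half_pos (half_pos hc))
  obtain ⟨δ', hδ', hd⟩ := exists_exp_le_one_add (a := 2 * √2) (by positivity) (half_pos hε)
  refine ⟨T0 + 1, min (min (δ / 2) δ') 1, by linarith,
    lt_min (lt_min (half_pos hδ) hδ') one_pos, fun T hT => ?_⟩
  obtain ⟨h0, hh0, H2⟩ := H (T - 1) (by linarith)
  have T1 : 0 ≤ T := by linarith
  refine ⟨h0 + T + 2 / c, by positivity, fun v e x0 x f a S hv he h1 mS hS ha hx hdx => ?_⟩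
  rcases le_total 1 ε with hε1 | hε1
  · refine le_trans ?_ (mul_nonneg (by positivity) (setIntegral_nonneg mS fun y _ =>
      mul_nonneg (Gk_nonneg 2 _) (sq_nonneg _)))
    exact mul_nonpos_of_nonpos_of_nonneg (mul_nonpos_of_nonpos_of_nonneg (by linarith)
      (by positivity)) (by positivity)
  set η := min (min (δ / 2) δ') 1 with hη
  have η1 : η ≤ δ / 2 := (min_le_left _ _).trans (min_le_left _ _)
  have η2 : η ≤ δ' := (min_le_left _ _).trans (min_le_right _ _)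
  have η3 : η ≤ 1 := min_le_right _ _
  obtain ⟨a1, a2⟩ := abs_le.1 ha
  have c1 : 0 ≤ 2 / c := by positivity
  have c2 : 2 ≤ c * f := by
    have : 2 / c ≤ f := by linarith
    rwa [div_le_iff₀' hc] at this
  have b1 := H2 v e x (f - a) S hv he (by linarith) mS fun y hy => by
    have w1 : |⟪e, x - (x0 + a • e)⟫| ≤ η := (abs_real_inner_le_norm _ _).trans (by rwa [he, one_mul])
    have w2 : ⟪e, y - x0⟫ - f = (⟪e, y - x⟫ - (f - a)) + ⟪e, x - (x0 + a • e)⟫ := by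
      simp only [inner_sub_right, inner_add_right, inner_smul_right, real_inner_self_eq_norm_sq, he]
      ring
    have w3 : |⟪e, y - x0⟫ - f| ≤ |⟪e, y - x⟫ - (f - a)| + η := by
      rw [w2]; exact (abs_add_le _ _).trans (by linarith)
    have w4 : ‖y - (x0 + f • e)‖ ≤ c * f := by
      have : y - (x0 + f • e) = (y - (x + (f - a) • e)) + (x - (x0 + a • e)) := by module
      rw [this]
      refine (norm_add_le _ _).trans ?_
      have := hy.2
      nlinarith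
    obtain ⟨y1, y2⟩ := hS y ⟨by linarith [hy.1], w4⟩
    exact ⟨y1, by linarith⟩
  have b2 : p0 a ^ 2 ≤ (1 + ε / 2) * psi v x ^ 2 := by
    have := pow_le_pow_left₀ (p0_pos _).le
      (p0_le_of_abs (d := a) (s := dd v x) hδ'.le (by linarith)) 2
    rw [mul_pow, ← Real.exp_nat_mul, ← hv.psi_eq_p0,
      show ((2 : ℕ) : ℝ) * (√2 * δ') = 2 * √2 * δ' by push_cast; ring] at this
    exact this.trans (mul_le_mul_of_nonneg_right hd (sq_nonneg _))
  rw [show -√2 * (f - a) = -√2 * f + √2 * a by ring, Real.exp_add] at b1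
  set E := Real.exp (-√2 * f) * Real.exp (√2 * a) with hE
  have E0 : 0 < E := by positivity
  have b3 := mul_le_mul_of_nonneg_left b1 (show 0 ≤ 9 * psi v x ^ 2 by positivity)
  have b4 : (1 - ε) * p0 a ^ 2 ≤ (1 - ε / 2) * psi v x ^ 2 := by
    nlinarith [mul_le_mul_of_nonneg_left b2 (sub_nonneg.2 hε1), sq_nonneg (psi v x),
      mul_nonneg (mul_pos hε hε).le (sq_nonneg (psi v x))]
  calc (1 - ε) * (12 * Real.exp (-√2 * f)) * (Real.exp (√2 * a) * p0 a ^ 2)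
      = 12 * E * ((1 - ε) * p0 a ^ 2) := by rw [hE]; ring
    _ ≤ 12 * E * ((1 - ε / 2) * psi v x ^ 2) := mul_le_mul_of_nonneg_left b4 (by positivity)
    _ = 9 * psi v x ^ 2 * ((1 - ε / 2) * (4 / 3 * E)) := by ring
    _ ≤ _ := b3

/-- **VT, pairs**: column × patch -/
theorem vt_pair (n : ℕ) {ε c : ℝ} (hε : 0 < ε) (hc : 0 < c) : ∃ T0 δ : ℝ, 0 ≤ T0 ∧ 0 < δ ∧
    ∀ T, T0 ≤ T → ∃ f0 : ℝ, 0 ≤ f0 ∧ ∀ (v : EE n → ℝ) (e x0 : EE n) (f : ℝ) (S : Set (EE n))
      (γ : ℝ → EE n), Sol v → ‖e‖ = 1 → f0 ≤ f → MeasurableSet S →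
      (∀ y ∈ Patch e x0 f T (c * f), y ∈ S ∧ |dd v y| ≤ |⟪e, y - x0⟫ - f| + δ) →
      (∀ a, |a| ≤ T → ‖γ a - (x0 + a • e)‖ ≤ δ ∧ |dd v (γ a)| ≤ |a| + δ) →
      ENNReal.ofReal ((1 - ε) * (32 * √2 * Real.exp (-√2 * f))) ≤ ∫⁻ a in Icc (-T) T,
        ENNReal.ofReal (9 * psi v (γ a) ^ 2 * ∫ y in S, Gk 2 (γ a - y) * psi v y ^ 2) := by
  rcases le_total 1 ε with hε1 | hε1
  · exact ⟨0, 1, le_rfl, one_pos, fun T _ => ⟨0, le_rfl, fun v e x0 f S γ _ _ _ _ _ _ => by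
      rw [ENNReal.ofReal_of_nonpos (mul_nonpos_of_nonpos_of_nonneg (by linarith) (by positivity))]
      exact zero_le⟩⟩
  obtain ⟨T0, δ, hT0, hδ, H⟩ := vt_pair_pt n (half_pos hε) hc
  obtain ⟨T1, hT1, hT⟩ := exists_exp_le sqrt2_pos (half_pos hε) 4
  refine ⟨max T0 T1, δ, le_max_of_le_left hT0, hδ, fun T h1 => ?_⟩
  obtain ⟨f0, hf0, H2⟩ := H T ((le_max_left _ _).trans h1)
  have T2 : 0 ≤ T := hT0.trans ((le_max_left _ _).trans h1)
  refine ⟨f0, hf0, fun v e x0 f S γ hv he h2 mS hS hγ => ?_⟩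
  set K := (1 - ε / 2) * (12 * Real.exp (-√2 * f)) with hK
  have K0 : 0 ≤ K := mul_nonneg (by linarith) (by positivity)
  have i1 : IntegrableOn (fun a => K * (Real.exp (√2 * a) * p0 a ^ 2)) (Icc (-T) T) :=
    (integrable_exp_p0.const_mul K).integrableOn
  refine le_trans ?_ (setLIntegral_mono' measurableSet_Icc fun a ha => ENNReal.ofReal_le_ofReal
    (H2 v e x0 (γ a) f a S hv he h2 mS hS (abs_le.2 ha) (hγ a (abs_le.2 ha)).1
      (hγ a (abs_le.2 ha)).2))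
  rw [← ofReal_integral_eq_lintegral_ofReal i1 (Eventually.of_forall fun a => by positivity),
    integral_const_mul, integral_Icc_eq_integral_Ioc, ← intervalIntegral.integral_of_le (by linarith)]
  refine ENNReal.ofReal_le_ofReal (le_trans ?_ (mul_le_mul_of_nonneg_left (int_exp_p0_ge T2) K0))
  have a1 := hT T ((le_max_right _ _).trans h1)
  have a2 : (1 - ε) ≤ (1 - ε / 2) * (1 - 4 * Real.exp (-√2 * T)) := by
    nlinarith [mul_le_mul_of_nonneg_left a1 (show 0 ≤ 1 - ε / 2 by linarith), mul_pos hε hε]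
  have a3 : 0 ≤ 32 * √2 * Real.exp (-√2 * f) := by positivity
  refine (mul_le_mul_of_nonneg_right a2 a3).trans_eq ?_
  rw [hK]; ring

end

end Crest.Agent.N067
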