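import Crest.Agent.N067.U.VT

/-!
# Row 67: the vertical pair gain with weights (helper43)
-/

set_option autoImplicit false

open MeasureTheory Topology Filter Set Metric
open scoped RealInnerProductSpace ENNReal

namespace Crest.Agent.N067

open Crest.Agent.R077 Ker

/-- `vt_pair` in the form of the inner integral of `M.PG`; no measurability of `S` or `a` -/
theorem vt_gam (n : ℕ) {ε c : ℝ} (hε : 0 < ε) (hc : 0 < c) : ∃ T0 δ : ℝ, 0 ≤ T0 ∧ 0 < δ ∧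
    ∀ T, T0 ≤ T → ∃ f0 : ℝ, 0 ≤ f0 ∧ ∀ (v a : EE n → ℝ) (e x0 : EE n) (f m m' : ℝ)
      (S : EE n → EE n → Prop) (γ : ℝ → EE n), Sol v → ‖e‖ = 1 → f0 ≤ f → 0 ≤ m + m' →
      (∀ y ∈ Patch e x0 f T (c * f), |dd v y| ≤ |⟪e, y - x0⟫ - f| + δ ∧ m' ≤ a y ∧
        ∀ s, |s| ≤ T → S (γ s) y) →
      (∀ s, |s| ≤ T → ‖γ s - (x0 + s • e)‖ ≤ δ ∧ |dd v (γ s)| ≤ |s| + δ ∧ m ≤ a (γ s)) →
      ENNReal.ofReal ((1 - ε) * (32 * √2 * Real.exp (-√2 * f)) * ((m + m') ^ 2 / 2)) ≤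
        ∫⁻ s in Icc (-T) T, ∫⁻ y in {y | S (γ s) y}, ENNReal.ofReal
          (9 * psi v (γ s) ^ 2 * Gk 2 (γ s - y) * psi v y ^ 2 * ((a (γ s) + a y) ^ 2 / 2)) := by
  obtain ⟨T0, δ, h0, hδ, h⟩ := vt_pair n hε hc
  refine ⟨T0, δ, h0, hδ, fun T hT => ?_⟩
  obtain ⟨f0, hf0, h⟩ := h T hT
  refine ⟨f0, hf0, fun v a e x0 f m m' S γ hv he hf hm hP hγ => ?_⟩
  have hM := measurableSet_patch e x0 f T (c * f)
  have h1 := h v e x0 f _ γ hv he hf hM (fun y hy => ⟨hy, (hP y hy).1⟩)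
    fun s hs => ⟨(hγ s hs).1, (hγ s hs).2.1⟩
  have q0 : 0 ≤ (m + m') ^ 2 / 2 := by positivity
  rw [ENNReal.ofReal_mul' q0]
  refine (mul_le_mul_left h1 _).trans ?_
  rw [← lintegral_mul_const' _ _ ENNReal.ofReal_ne_top]
  refine setLIntegral_mono' measurableSet_Icc fun s hs => ?_
  have hs' : |s| ≤ T := abs_le.2 hs
  have hi : Integrable fun y => Gk 2 (γ s - y) * psi v y ^ 2 :=
    ((integrable_Gk two_pos).comp_sub_left (γ s)).mul_bdd (c := 1)
      (hv.psi_sm.continuous.pow 2).aestronglyMeasurable (Eventually.of_forall fun y => by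
        rw [Real.norm_of_nonneg (sq_nonneg _)]
        exact pow_le_one₀ (hv.psi_pos y).le (psi_le_one v y))
  refine le_trans ?_ (lintegral_mono_set fun y hy => (hP y hy).2.2 s hs')
  rw [← ENNReal.ofReal_mul' q0, ← integral_const_mul, ← integral_mul_const,
    ofReal_integral_eq_lintegral_ofReal (((hi.const_mul _).mul_const _).integrableOn)
      (Eventually.of_forall fun y => by have := Gk_nonneg 2 (γ s - y); positivity)]
  refine setLIntegral_mono' hM fun y hy => ENNReal.ofReal_le_ofReal ?_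
  have g0 := Gk_nonneg 2 (γ s - y)
  have : (m + m') ^ 2 ≤ (a (γ s) + a y) ^ 2 :=
    pow_le_pow_left₀ hm (add_le_add (hγ s hs').2.2 (hP y hy).2.1) 2
  rw [← mul_assoc]
  gcongr

end Crest.Agent.N067
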