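import Crest.Agent.N067.U.Pup

/-!
# Row 67: PUP from a zero-free ball (helper88)
-/

set_option autoImplicit false

open MeasureTheory Laplacian InnerProductSpace Topology Filter Set Metric
open scoped RealInnerProductSpace Gradient ContDiff

namespace Crest.Agent.N067

open Crest.Agent.R077 Ker

variable {n : ℕ}

/-- `|d|` inside a zero-free ball whose centre is `q0 + R0 e'`, `|R0 - ρ| ≤ A` -/
theorem ball_dd_height (n : ℕ) : ∃ C : ℝ, 1 ≤ C ∧ ∀ (v : EE n → ℝ) (e' q0 y : EE n) (ρ R0 A : ℝ),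
    Sol v → ‖e'‖ = 1 → (∀ z ∈ ball (q0 + R0 • e') ρ, 0 < v z) → 0 < ρ → |R0 - ρ| ≤ A →
    2 * A ≤ ρ → ⟪e', y - q0⟫ - ‖y - q0‖ ^ 2 / (2 * R0) - A - C ≤ |dd v y| := by
  obtain ⟨C, hC1, hC⟩ := ball_dd n
  refine ⟨2 * C, by linarith, fun v e' q0 y ρ R0 A hv he hpos hρ hA hA2 => ?_⟩
  obtain ⟨hA3, hA4⟩ := abs_le.1 hA
  have hA0 : 0 ≤ A := (abs_nonneg _).trans hA
  have hR0 : 0 < R0 := by linarith
  set m := ⟪e', y - q0⟫ - ‖y - q0‖ ^ 2 / (2 * R0) with hm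
  have h1 : ‖y - (q0 + R0 • e')‖ ^ 2 = R0 ^ 2 - 2 * R0 * m := by
    rw [show y - (q0 + R0 • e') = (y - q0) - R0 • e' by abel, norm_sub_sq_real, norm_smul, he,
      inner_smul_right, real_inner_comm, mul_one, Real.norm_eq_abs, sq_abs, hm]
    field_simp
    ring
  clear_value m
  have hd := abs_nonneg (dd v y)
  rcases le_or_gt m A with h | h
  · linarith
  have h2 : ‖y - (q0 + R0 • e')‖ < ρ := by
    refine lt_of_pow_lt_pow_left₀ 2 hρ.le ?_
    have h3 := mul_lt_mul_of_pos_left h hR0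
    have h4 := pow_le_pow_left₀ (show 0 ≤ R0 - A by nlinarith [sq_nonneg ‖y - (q0 + R0 • e')‖])
      (show R0 - A ≤ ρ by linarith) 2
    nlinarith [sq_nonneg A]
  have h3 := hC v hv _ y ρ hpos h2
  have h4 : √(‖y - (q0 + R0 • e')‖ ^ 2 + C * ρ) ≤ R0 - m + C := by
    have h5 : 2 * m ≤ R0 := by
      refine le_of_mul_le_mul_left ?_ hR0
      nlinarith [sq_nonneg ‖y - (q0 + R0 • e')‖]
    refine Real.sqrt_le_iff.2 ⟨by linarith, ?_⟩
    have h6 := mul_le_mul_of_nonneg_left (show ρ ≤ 2 * R0 by linarith) (show 0 ≤ C by linarith)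
    nlinarith [sq_nonneg (C - m)]
  linarith [le_abs_self (dd v y)]

/-- the part of the forward cone above the height `h` -/
def Top (e q0 : EE n) (κ h : ℝ) : Set (EE n) :=
  {y | (1 - κ) * ‖y - q0‖ ≤ ⟪e, y - q0⟫ ∧ h ≤ ⟪e, y - q0⟫}

theorem measurableSet_Top (e q0 : EE n) (κ h : ℝ) : MeasurableSet (Top e q0 κ h) := by
  have h1 : IsClosed {y : EE n | (1 - κ) * ‖y - q0‖ ≤ ⟪e, y - q0⟫} :=
    isClosed_le (by fun_prop) (by fun_prop)
  have h2 : IsClosed {y : EE n | h ≤ ⟪e, y - q0⟫} := isClosed_le (by fun_prop) (by fun_prop)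
  exact (h1.inter h2).measurableSet

/-- **PUP from a ball**: `q0` lies near the sphere of a zero-free ball of radius `ρ`, `e` is almost
the inner normal, `q` lies at height and depth `T ≤ δ ρ` above `q0`. -/
theorem pup_ball (hn : 4 ≤ n) {c4 A : ℝ} (hc : 0 < c4) (hc1 : c4 ≤ 1) (hA0 : 0 ≤ A) :
    ∃ C : ℝ, 0 ≤ C ∧ ∀ (v : EE n → ℝ) (e e' q0 q : EE n) (T ρ R0 : ℝ), Sol v →
      ‖e‖ = 1 → ‖e'‖ = 1 → ‖e - e'‖ ≤ c4 ^ 2 / 25600 → (∀ z ∈ ball (q0 + R0 • e') ρ, 0 < v z) →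
      |R0 - ρ| ≤ A → 0 ≤ T → T ≤ c4 ^ 2 / 25600 * ρ → ‖q - (q0 + T • e)‖ ≤ A →
      T - A ≤ |dd v q| →
      psi v q * ue v e q ≤ C * Real.exp (-(c4 / 16 * T)) * ue v e q0 +
        6 * psi v q * ∫ y in Top e q0 (c4 / 16) ((2 - c4) * ρ), Gk 2 (q - y) * psi v y ^ 2 := by
  obtain ⟨Cb, hCb1, hCb⟩ := ball_dd_height n
  obtain ⟨C, hC0, hC⟩ := pupA hn (c := c4 / 8) (κ := c4 / 16) (A := A + Cb) (by positivity)
    (by linarith) (by positivity) (by linarith) (by linarith)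
  obtain ⟨L, hL1, hL⟩ := ue_grad n
  refine ⟨C + Real.exp (L * (2 * A + Cb) + (A + Cb)), by positivity,
    fun v e e' q0 q T ρ R0 hv he he' hee hpos hR hT0 hT hq hd => ?_⟩
  have hu0 := hv.ue_nonneg he q0
  have hE := Real.exp_pos (-(c4 / 16 * T))
  have hI : 0 ≤ 6 * psi v q *
      ∫ y in Top e q0 (c4 / 16) ((2 - c4) * ρ), Gk 2 (q - y) * psi v y ^ 2 :=
    mul_nonneg (by linarith [hv.psi_pos q])
      (integral_nonneg fun y => mul_nonneg (Gk_nonneg 2 _) (sq_nonneg _))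
  rcases le_or_gt T (A + Cb) with hs | hs
  · have h1 : ‖q - q0‖ ≤ 2 * A + Cb := by
      have := norm_sub_le_norm_sub_add_norm_sub q (q0 + T • e) q0
      rw [add_sub_cancel_left, norm_smul, he, mul_one, Real.norm_eq_abs, abs_of_nonneg hT0] at this
      linarith
    have h2 := (hL v e hv he).2 q0 q
    have h3 : Real.exp (L * ‖q - q0‖) ≤
        Real.exp (L * (2 * A + Cb) + (A + Cb)) * Real.exp (-(c4 / 16 * T)) := by
      rw [← Real.exp_add]
      have h4 := mul_le_mul_of_nonneg_left h1 (show 0 ≤ L by linarith)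
      have h5 := mul_le_mul_of_nonneg_right (show c4 / 16 ≤ 1 by linarith) hT0
      exact Real.exp_le_exp.2 (by linarith)
    have h4 := mul_le_mul_of_nonneg_right h3 hu0
    have h5 := mul_le_of_le_one_left (hv.ue_nonneg he q) (psi_le_one v q)
    have h6 : 0 ≤ C * Real.exp (-(c4 / 16 * T)) * ue v e q0 := by positivity
    linarith
  set δ := c4 ^ 2 / 25600 with hδ
  have hδ0 : 0 < δ := by positivity
  have hδ1 : δ ≤ c4 / 32 := by rw [hδ]; nlinarith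
  have hρ : 0 < ρ := by
    by_contra h
    have := mul_nonpos_of_nonneg_of_nonpos hδ0.le (not_lt.1 h)
    linarith
  have hδρ : δ * ρ ≤ 1 / 32 * ρ := mul_le_mul_of_nonneg_right (by linarith) hρ.le
  obtain ⟨hR1, hR2⟩ := abs_le.1 hR
  have hR0 : ρ ≤ 2 * R0 := by linarith
  have hR00 : 0 < R0 := by linarith
  have hh := fun y => hCb v e' q0 y ρ R0 A hv he' hpos hρ hR (by linarith)
  have hin : ∀ y, ⟪e, y - q0⟫ - δ * ‖y - q0‖ ≤ ⟪e', y - q0⟫ := fun y => by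
    have h1 := real_inner_le_norm (e - e') (y - q0)
    have h2 := mul_le_mul_of_nonneg_right hee (norm_nonneg (y - q0))
    rw [inner_sub_left] at h1
    linarith
  have e5 : 5 / (c4 / 8) = 40 / c4 := by field_simp; norm_num
  have h := hC v e q0 q T _ hv he (measurableSet_Top e q0 (c4 / 16) ((2 - c4) * ρ)) hs.le
    (by linarith) (by linarith) (by linarith) (fun y _ h1 h2 => ?_) fun y hy _ h2 => ?_
  · have : 0 ≤ Real.exp (L * (2 * A + Cb) + (A + Cb)) * Real.exp (-(c4 / 16 * T)) * ue v e q0 := by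
      positivity
    linarith
  · rw [e5] at h1
    have h3 : δ * ‖y - q0‖ ≤ T / 8 := by
      refine (mul_le_mul_of_nonneg_left h1 hδ0.le).trans ?_
      have : δ * (40 / c4 * T) = c4 / 640 * T := by rw [hδ]; field_simp; ring
      rw [this]
      nlinarith
    have h4 : ‖y - q0‖ ^ 2 / (2 * R0) ≤ T / 8 := by
      rw [div_le_iff₀ (by positivity)]
      have h5 := pow_le_pow_left₀ (norm_nonneg _) h1 2
      have h6 : (40 / c4 * T) ^ 2 = T * T / (16 * δ) := by rw [hδ]; field_simp; ring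
      have h7 : T * T / (16 * δ) ≤ T * ρ / 16 := by
        rw [div_le_div_iff₀ (by positivity) (by norm_num)]
        have := mul_le_mul_of_nonneg_left hT hT0
        linarith
      have h8 := mul_le_mul_of_nonneg_left hR0 hT0
      have h9 : 0 ≤ T * R0 := by positivity
      linarith
    linarith [hh y, hin y]
  · have h3 : ⟪e, y - q0⟫ < (2 - c4) * ρ := lt_of_not_ge fun h => hy ⟨h2, h⟩
    have hD := norm_nonneg (y - q0)
    have h4 : ρ ≤ (1 + c4 / 16) * R0 := by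
      have h5 := mul_le_mul_of_nonneg_left hR0 hδ0.le
      have h6 := mul_le_mul_of_nonneg_right hδ1 hR00.le
      linarith
    have h5 : ‖y - q0‖ ≤ 2 * R0 * (1 - c4 / 3) := by
      refine le_of_mul_le_mul_left ?_ (show 0 < 1 - c4 / 16 by linarith)
      have h6 := mul_le_mul_of_nonneg_left h4 (show 0 ≤ 2 - c4 by linarith)
      have h7 : 0 ≤ c4 * R0 := by positivity
      have h8 : 0 ≤ c4 * c4 * R0 := by positivity
      linarith
    have h6 : ‖y - q0‖ ^ 2 / (2 * R0) ≤ (1 - c4 / 3) * ‖y - q0‖ := by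
      rw [div_le_iff₀ (by positivity)]
      have := mul_le_mul_of_nonneg_left h5 hD
      linarith
    have h7 := mul_le_mul_of_nonneg_right hδ1 hD
    have h8 : 0 ≤ c4 * ‖y - q0‖ := by positivity
    linarith [hh y, hin y]

/-- the kernel mass of a far set -/
theorem int_far_le (n : ℕ) {a : ℝ} (ha0 : 0 ≤ a) (ha : a < Real.sqrt 2) : ∃ C : ℝ, 0 ≤ C ∧
    ∀ (f : EE n → ℝ) (q : EE n) (S : Set (EE n)) (D : ℝ), MeasurableSet S → (∀ y, 0 ≤ f y) →
      (∀ y, f y ≤ 1) → (∀ y ∈ S, D ≤ ‖q - y‖) →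
      ∫ y in S, Gk 2 (q - y) * f y ≤ C * Real.exp (-(a * D)) := by
  have ha2 : a ^ 2 < 2 := by
    have := pow_lt_pow_left₀ ha ha0 two_ne_zero
    rwa [sqrt2_sq] at this
  have hI := integrable_Gk_exp (n := n) two_pos ha2
  refine ⟨∫ z : EE n, Gk 2 z * Real.exp (a * ‖z‖),
    integral_nonneg fun z => mul_nonneg (Gk_nonneg 2 z) (Real.exp_pos _).le,
    fun f q S D hS h0 h1 hD => ?_⟩
  rw [← integral_sub_left_eq_self (fun z => Gk 2 z * Real.exp (a * ‖z‖)) volume q,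
    ← integral_mul_const, ← integral_indicator hS]
  refine integral_mono_of_nonneg (Eventually.of_forall fun y => indicator_nonneg
    (fun y _ => mul_nonneg (Gk_nonneg 2 _) (h0 y)) y) ((hI.comp_sub_left q).mul_const _)
    (Eventually.of_forall fun y => ?_)
  have hG := Gk_nonneg 2 (q - y)
  by_cases hy : y ∈ S
  · rw [indicator_of_mem hy]
    beta_reduce
    rw [mul_assoc, ← Real.exp_add]
    refine mul_le_mul_of_nonneg_left ((h1 y).trans (Real.one_le_exp ?_)) hG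
    linarith [mul_le_mul_of_nonneg_left (hD y hy) ha0]
  · rw [indicator_of_notMem hy]
    positivity

/-- crude bound of the `TOP` term (case (a) of FLUX) -/
theorem top_le (n : ℕ) {a : ℝ} (ha0 : 0 ≤ a) (ha : a < Real.sqrt 2) : ∃ C : ℝ, 0 ≤ C ∧
    ∀ (v : EE n → ℝ) (e q0 q : EE n) (κ h T A : ℝ), Sol v → ‖e‖ = 1 → ‖q - (q0 + T • e)‖ ≤ A →
      ∫ y in Top e q0 κ h, Gk 2 (q - y) * psi v y ^ 2 ≤ C * Real.exp (-(a * (h - T - A))) := by
  obtain ⟨C, hC0, hC⟩ := int_far_le n ha0 ha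
  refine ⟨C, hC0, fun v e q0 q κ h T A hv he hq => hC _ q _ _ (measurableSet_Top e q0 κ h)
    (fun y => sq_nonneg _) (fun y => pow_le_one₀ (hv.psi_pos y).le (psi_le_one v y))
    fun y hy => ?_⟩
  have h1 := real_inner_le_norm e (y - q)
  have h2 := real_inner_le_norm e (q - (q0 + T • e))
  have h3 : ⟪e, y - q0⟫ = ⟪e, y - q⟫ + ⟪e, q - (q0 + T • e)⟫ + T := by
    simp only [inner_sub_right, inner_add_right, inner_smul_right, real_inner_self_eq_norm_sq, he]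
    ring
  rw [he, one_mul] at h1 h2
  rw [norm_sub_rev]
  linarith [hy.2]

/-- **PUP from a ball** for `P = ψ² t / 4` -/
theorem pupP_ball (hn : 4 ≤ n) {c4 A : ℝ} (hc : 0 < c4) (hc1 : c4 ≤ 1) (hA0 : 0 ≤ A) :
    ∃ C : ℝ, 0 ≤ C ∧ ∀ (v : EE n → ℝ) (e e' q0 q : EE n) (T ρ R0 : ℝ), Sol v →
      ‖e‖ = 1 → ⟪e, ∇ (dd v) q0⟫ = ‖∇ (dd v) q0‖ → ‖e'‖ = 1 → ‖e - e'‖ ≤ c4 ^ 2 / 25600 →
      (∀ z ∈ ball (q0 + R0 • e') ρ, 0 < v z) →
      |R0 - ρ| ≤ A → 0 ≤ T → T ≤ c4 ^ 2 / 25600 * ρ → ‖q - (q0 + T • e)‖ ≤ A →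
      T - A ≤ |dd v q| →
      psi v q ^ 2 * tt v q / 4 ≤ C * Real.exp (-(c4 / 16 * T)) * tt v q0 +
        3 * psi v q * ∫ y in Top e q0 (c4 / 16) ((2 - c4) * ρ), Gk 2 (q - y) * psi v y ^ 2 := by
  obtain ⟨C, hC, h⟩ := pup_ball hn hc hc1 hA0
  refine ⟨C, hC, fun v e e' q0 q T ρ R0 hv he hq0 he' hee hpos hR hT0 hT hq hd => ?_⟩
  have h2 := h v e e' q0 q T ρ R0 hv he he' hee hpos hR hT0 hT hq hd
  have h3 := mul_le_mul_of_nonneg_left (hv.ue_le_tt hq0)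
    (by positivity : 0 ≤ C * Real.exp (-(c4 / 16 * T)))
  have h4 := mul_nonneg (by positivity : 0 ≤ C * Real.exp (-(c4 / 16 * T))) (hv.tt_nonneg q0)
  linarith [hv.P_le_ue he q]

end Crest.Agent.N067
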