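import Crest.Agent.N067.U.PupB
import Crest.Agent.N067.U.VT

/-!
# Row 67: the source `P = ψ² t / 4` in a zero-free slab (helper88)
-/

set_option autoImplicit false

open MeasureTheory Laplacian InnerProductSpace Topology Filter Set Metric
open scoped RealInnerProductSpace Gradient ContDiff

namespace Crest.Agent.N067

open Crest.Agent.R077 Ker

variable {n : ℕ}

/-- lower bounds of `d` in a zero-free slab of height `f` over `q0` -/
theorem slab_pos_dd (n : ℕ) : ∃ C : ℝ, 1 ≤ C ∧ ∀ (v : EE n → ℝ) (e q0 : EE n) (f A : ℝ),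
    Sol v → ‖e‖ = 1 → 0 ≤ A → 4 * A ≤ f →
    (∀ y, ‖y - q0‖ ≤ 3 * f → A ≤ ⟪e, y - q0⟫ → ⟪e, y - q0⟫ ≤ f - A → 0 < v y) →
    ∀ y, ‖y - q0‖ ≤ 2 * f →
      (⟪e, y - q0⟫ ≤ f / 4 → ⟪e, y - q0⟫ - (A + C) ≤ |dd v y|) ∧
      (⟪e, y - q0⟫ ≤ 3 / 4 * f → ⟪e, y - q0⟫ / 9 - (A + C) ≤ |dd v y|) ∧
      (3 / 4 * f ≤ ⟪e, y - q0⟫ → f - ⟪e, y - q0⟫ - (A + C) ≤ |dd v y|) := by
  obtain ⟨C, hC1, hC⟩ := ball_dd' n
  refine ⟨C, hC1, fun v e q0 f A hv he hA hf hp y hy => ?_⟩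
  set s := ⟪e, y - q0⟫ with hs
  have key : ∀ a ρ : ℝ, ρ / 2 ≤ |a| → |a| < ρ → 2 * ρ ≤ f → A ≤ s + a - ρ → s + a + ρ ≤ f - A →
      ρ - |a| - C ≤ |dd v y| := by
    intro a ρ h1 h2 h3 h4 h5
    have e1 : ‖y - (y + a • e)‖ = |a| := by
      rw [sub_add_cancel_left, norm_neg, norm_smul, he, mul_one, Real.norm_eq_abs]
    have := hC v hv (y + a • e) y ρ (fun z hz => ?_) (by rwa [e1]) (by rwa [e1])
    · rw [e1] at this
      exact this.trans (le_abs_self _)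
    rw [mem_ball_iff_norm] at hz
    have b1 := abs_real_inner_le_norm e (z - (y + a • e))
    have b2 : ⟪e, z - q0⟫ = ⟪e, z - (y + a • e)⟫ + s + a := by
      simp only [hs, inner_sub_right, inner_add_right, inner_smul_right,
        real_inner_self_eq_norm_sq, he]
      ring
    rw [he, one_mul, abs_le] at b1
    have b3 := norm_sub_le_norm_sub_add_norm_sub z (y + a • e) y
    have b4 := norm_sub_le_norm_sub_add_norm_sub z y q0
    rw [norm_sub_rev (y + a • e) y, e1] at b3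
    exact hp z (by linarith) (by linarith [b1.1]) (by linarith [b1.2])
  clear_value s
  have hd := abs_nonneg (dd v y)
  have low : s ≤ f / 4 → s - (A + C) ≤ |dd v y| := fun h => by
    rcases le_or_gt s A with h1 | h1
    · linarith
    have h2 : 0 ≤ f / 2 - s := by linarith
    have := key (f / 2 - s) (f / 2 - A) (by rw [abs_of_nonneg h2]; linarith)
      (by rw [abs_of_nonneg h2]; linarith) (by linarith) (by linarith) (by linarith)
    rw [abs_of_nonneg h2] at this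
    linarith
  refine ⟨low, fun h => ?_, fun h => ?_⟩
  · rcases le_or_gt s (3 * A) with h1 | h1
    · linarith
    have h2 : 0 ≤ (s / 3 - A) / 3 := by linarith
    have := key ((s / 3 - A) / 3) (2 * ((s / 3 - A) / 3)) (by rw [abs_of_nonneg h2]; linarith)
      (by rw [abs_of_nonneg h2]; linarith) (by linarith) (by linarith) (by linarith)
    rw [abs_of_nonneg h2] at this
    linarith
  · rcases le_or_gt (f - A) s with h1 | h1
    · linarith
    have h2 : f / 2 - s ≤ 0 := by linarith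
    have := key (f / 2 - s) (f / 2 - A) (by rw [abs_of_nonpos h2]; linarith)
      (by rw [abs_of_nonpos h2]; linarith) (by linarith) (by linarith) (by linarith)
    rw [abs_of_nonpos h2] at this
    linarith

/-- **SRC**, `u_e` form: heights are measured along `e'` from `q0`; the slab has height `f` -/
theorem src_ue (hn : 4 ≤ n) {ε A : ℝ} (hε : 0 < ε) (hA : 0 ≤ A) :
    ∃ C L δ f0 : ℝ, 0 ≤ C ∧ 0 ≤ L ∧ 0 < δ ∧ ∀ (v : EE n → ℝ) (e e' q0 q : EE n) (T f : ℝ),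
      Sol v → ‖e‖ = 1 → ‖e'‖ = 1 → ‖e - e'‖ * f ≤ 1 → f0 ≤ f → 0 ≤ T → 250 * T ≤ f →
      ‖q - (q0 + T • e')‖ ≤ A → ⟪e', q - q0⟫ - δ ≤ |dd v q| →
      (∀ y, ‖y - q0‖ ≤ 3 * f → A ≤ ⟪e', y - q0⟫ → ⟪e', y - q0⟫ ≤ f - A → 0 < v y) →
      (∀ y, ‖y - q0‖ ≤ 2 * f → |⟪e', y - q0⟫ - f| ≤ L →
        |⟪e', y - q0⟫ - f| - δ ≤ |dd v y|) →
      psi v q * ue v e q ≤ C * Real.exp (-(T / 4)) * ue v e q0 +
        (1 + ε) * (32 * Real.exp (-√2 * f)) := by
  obtain ⟨Cb, hCb1, hCb⟩ := slab_pos_dd n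
  obtain ⟨C, hC0, hC⟩ := pupA hn (c := 2 / 25) (κ := 1 / 4) (A := A + Cb + 2) (by norm_num)
    (by norm_num) (by norm_num) le_rfl (by linarith)
  obtain ⟨L, δ, h0, hL, hδ, H⟩ := vtP n (C0 := A + Cb) (lam := 3 / 2) hε (by linarith) (by norm_num)
  obtain ⟨G, hG1, hG⟩ := ue_grad n
  refine ⟨C + Real.exp (G * (2 * A + Cb + 2) + (A + Cb + 2)), L, min δ 1,
    1000 + 8 * A + 2 * |h0|, by positivity, hL, lt_min hδ one_pos,
    fun v e e' q0 q T f hv he he' hee hf hT0 hT hq hd hp hN => ?_⟩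
  have hu0 := hv.ue_nonneg he q0
  have hE := Real.exp_pos (-(T / 4))
  have hh0 := abs_nonneg h0
  have hI : 0 ≤ (1 + ε) * (32 * Real.exp (-√2 * f)) := by positivity
  have hqq : ‖q - q0‖ ≤ A + T := by
    have := norm_sub_le_norm_sub_add_norm_sub q (q0 + T • e') q0
    rw [add_sub_cancel_left, norm_smul, he', mul_one, Real.norm_eq_abs, abs_of_nonneg hT0] at this
    linarith
  rcases le_or_gt T (A + Cb + 2) with hs | hs
  · have h2 := (hG v e hv he).2 q0 q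
    have h3 : Real.exp (G * ‖q - q0‖) ≤
        Real.exp (G * (2 * A + Cb + 2) + (A + Cb + 2)) * Real.exp (-(T / 4)) := by
      rw [← Real.exp_add]
      have h4 := mul_le_mul_of_nonneg_left (show ‖q - q0‖ ≤ 2 * A + Cb + 2 by linarith)
        (show 0 ≤ G by linarith)
      exact Real.exp_le_exp.2 (by linarith)
    have h4 := mul_le_mul_of_nonneg_right h3 hu0
    have h5 := mul_le_of_le_one_left (hv.ue_nonneg he q) (psi_le_one v q)
    have h6 : 0 ≤ C * Real.exp (-(T / 4)) * ue v e q0 := by positivity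
    linarith
  have hsl := hCb v e' q0 f A hv he' hA (by linarith) hp
  have hee1 : ‖e - e'‖ ≤ 1 / 1000 := by
    have := mul_le_mul_of_nonneg_left (show 1000 ≤ f by linarith) (norm_nonneg (e - e'))
    linarith
  have hin : ∀ y, ⟪e, y - q0⟫ - 1 / 1000 * ‖y - q0‖ ≤ ⟪e', y - q0⟫ := fun y => by
    have h1 := real_inner_le_norm (e - e') (y - q0)
    have h2 := mul_le_mul_of_nonneg_right hee1 (norm_nonneg (y - q0))
    rw [inner_sub_left] at h1
    linarith
  have hle : ∀ y, ⟪e', y - q0⟫ ≤ ‖y - q0‖ := fun y => by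
    simpa [he'] using real_inner_le_norm e' (y - q0)
  set T' := ⟪e', q - q0⟫ with hT'
  have hT1 : |T' - T| ≤ A := by
    have b1 := abs_real_inner_le_norm e' (q - (q0 + T • e'))
    have b2 : ⟪e', q - (q0 + T • e')⟫ = T' - T := by
      simp only [hT', inner_sub_right, inner_add_right, inner_smul_right,
        real_inner_self_eq_norm_sq, he']
      ring
    rw [b2, he', one_mul] at b1
    linarith
  obtain ⟨hT2, hT3⟩ := abs_le.1 hT1
  have hq' : ‖q - (q0 + T • e)‖ ≤ A + Cb + 2 := by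
    have b1 := norm_sub_le_norm_sub_add_norm_sub q (q0 + T • e') (q0 + T • e)
    rw [add_sub_add_left_eq_sub, ← smul_sub, norm_smul, Real.norm_eq_abs, abs_of_nonneg hT0,
      norm_sub_rev e' e] at b1
    have b2 := mul_le_mul_of_nonneg_left (show T ≤ f by linarith) (norm_nonneg (e - e'))
    linarith
  have mT : MeasurableSet {y : EE n | 3 / 4 * f ≤ ⟪e', y - q0⟫} :=
    (isClosed_le (by fun_prop) (by fun_prop)).measurableSet
  have m1 := min_le_left δ 1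
  have m2 := min_le_right δ 1
  have h1 := hC v e q0 q T _ hv he mT hs.le (by linarith) hq' (by linarith)
    (fun y _ h1 h2 => by
      have := (hsl y (by linarith)).1 (by linarith [hle y])
      linarith [hin y])
    (fun y hy _ h2 => by
      have h3 : ⟪e', y - q0⟫ < 3 / 4 * f := lt_of_not_ge hy
      have := (hsl y (by linarith [hin y, norm_nonneg (y - q0)])).2.1 h3.le
      linarith [hin y, norm_nonneg (y - q0)])
  have hyq : ∀ y, ⟪e', y - q⟫ = ⟪e', y - q0⟫ - T' := fun y => by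
    simp only [hT', inner_sub_right]; ring
  have hr : ∀ y, ‖y - q‖ < 3 / 2 * (f - T') → ‖y - q0‖ ≤ 2 * f := fun y hy => by
    linarith [norm_sub_le_norm_sub_add_norm_sub y q q0]
  have h2 := H v e' q T' (f - T') _ hv he' (by linarith [le_abs_self h0]) mT (by linarith)
    (fun y hy h1 _ => by
      have := (hsl y (hr y h1)).2.2 hy
      rw [hyq]; linarith)
    (fun y _ h1 h2 => by
      rw [hyq, show ⟪e', y - q0⟫ - T' - (f - T') = ⟪e', y - q0⟫ - f by ring] at h2 ⊢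
      linarith [hN y (hr y h1) h2])
  rw [show T' + (f - T') = f by ring] at h2
  rw [show 1 / 4 * T = T / 4 by ring] at h1
  have : 0 ≤ Real.exp (G * (2 * A + Cb + 2) + (A + Cb + 2)) * Real.exp (-(T / 4)) * ue v e q0 := by
    positivity
  linarith

/-- **SRC**: `P(q) ≤ C e^{-T/4} t(q0) + (1 + ε) 16 e^{-√2 f}` in a zero-free slab -/
theorem src_slab (hn : 4 ≤ n) {ε A : ℝ} (hε : 0 < ε) (hA : 0 ≤ A) :
    ∃ C L δ f0 : ℝ, 0 ≤ C ∧ 0 ≤ L ∧ 0 < δ ∧ ∀ (v : EE n → ℝ) (e e' q0 q : EE n) (T f : ℝ),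
      Sol v → ‖e‖ = 1 → ⟪e, ∇ (dd v) q0⟫ = ‖∇ (dd v) q0‖ → ‖e'‖ = 1 → ‖e - e'‖ * f ≤ 1 →
      f0 ≤ f → 0 ≤ T → 250 * T ≤ f →
      ‖q - (q0 + T • e')‖ ≤ A → ⟪e', q - q0⟫ - δ ≤ |dd v q| →
      (∀ y, ‖y - q0‖ ≤ 3 * f → A ≤ ⟪e', y - q0⟫ → ⟪e', y - q0⟫ ≤ f - A → 0 < v y) →
      (∀ y, ‖y - q0‖ ≤ 2 * f → |⟪e', y - q0⟫ - f| ≤ L →
        |⟪e', y - q0⟫ - f| - δ ≤ |dd v y|) →
      psi v q ^ 2 * tt v q / 4 ≤ C * Real.exp (-(T / 4)) * tt v q0 +
        (1 + ε) * (16 * Real.exp (-√2 * f)) := by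
  obtain ⟨C, L, δ, f0, hC, hL, hδ, H⟩ := src_ue hn hε hA
  refine ⟨C, L, δ, f0, hC, hL, hδ,
    fun v e e' q0 q T f hv he hq0 he' hee hf hT0 hT hq hd hp hN => ?_⟩
  have h2 := H v e e' q0 q T f hv he he' hee hf hT0 hT hq hd hp hN
  have h3 := mul_le_mul_of_nonneg_left (hv.ue_le_tt hq0)
    (by positivity : 0 ≤ C * Real.exp (-(T / 4)))
  have h4 := mul_nonneg (by positivity : 0 ≤ C * Real.exp (-(T / 4))) (hv.tt_nonneg q0)
  linarith [hv.P_le_ue he q]

end Crest.Agent.N067
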